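import Vale.Agent.P076N.Fin

open MeasureTheory
open Vale.Agent.P076 Vale.Agent.P076.H791

/-- Carleson's problem at the Sobolev endpoint in every dimension `n ≥ 2`: for every `f ∈ H^{s_n}(ℝⁿ)`,
`s_n = n / (2 (n + 1))` (`g` is its Fourier transform), one has `e^{itΔ}f(x) → f(x)` as `t ↓ 0` for almost every `x`;
moreover for almost every `x` the value `e^{itΔ}f(x)` exists for all real times and is a continuous
function of the time. -/
theorem Vale.Agent.Results.P076.AllDimensions.result (n : ℕ) (hn : 2 ≤ n)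
    (f g : (Fin n → ℝ) → ℂ) (hfg : IsFourierPair f g)
    (hf : Integrable (fun ξ => (1 + nrm ξ ^ 2) ^ critExp n * ‖g ξ‖ ^ 2)) :
    ConvergesAE f g ∧ ConvergesStrongly f g :=
  Vale.Agent.P076N.endpoint_all n hn f g hfg hf
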